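import Vale.Agent.P022.H431.Sv.Defs

/-!
# P022-L3, [SOLV] [ASM]: the assembly (helper201)
-/

open NumberField Matrix

noncomputable section

namespace Vale.Agent.P022.H201.Sv

open Vale.Agent.P022 Vale.Agent.P022.Sv

/-- The residually solvable case. -/
theorem solv_aux (hG : GrpStmt) (hI : IndStmt) (hT : TrivStmt)
    (E : Type) [NontriviallyNormedField E] [NormedAlgebra ℚ_[2] E]
    [FiniteDimensional ℚ_[2] E] (r : GQ →* GL (Fin 2) E) (hc : Continuous r)
    (hu : ∀ p : ℕ, p.Prime → p ≠ 2 → p ≠ 3 → St.UnrAt r p) (h3 : St.PrincipalAt3 r)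
    (hs : St.ResSolv r) : St.ResTriv r := by
  obtain ⟨O, k, _, _, π, ρ, hO, hsolv, htd⟩ := hs
  have ht : ∀ g, ∃ t d : O, (t : E) = (r g : Matrix (Fin 2) (Fin 2) E).trace ∧
      (d : E) = (r g : Matrix (Fin 2) (Fin 2) E).det ∧
      ((algebraMap k (AlgebraicClosure k)).comp π) t =
        (((GeneralLinearGroup.map (algebraMap k (AlgebraicClosure k))).comp ρ) g :
          Matrix (Fin 2) (Fin 2) (AlgebraicClosure k)).trace ∧
      ((algebraMap k (AlgebraicClosure k)).comp π) d =
        (((GeneralLinearGroup.map (algebraMap k (AlgebraicClosure k))).comp ρ) g :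
          Matrix (Fin 2) (Fin 2) (AlgebraicClosure k)).det := by
    intro g
    obtain ⟨t, d, h1, h2, h4, h5⟩ := htd g
    refine ⟨t, d, h1, h2, ?_, ?_⟩
    · rw [RingHom.comp_apply, h4]
      simp [Matrix.trace_fin_two, GeneralLinearGroup.map]
    · rw [RingHom.comp_apply, h5]
      simp [Matrix.det_fin_two, GeneralLinearGroup.map]
  have hsol : Group.IsSolvable
      ((GeneralLinearGroup.map (n := Fin 2) (algebraMap k (AlgebraicClosure k))).comp ρ).range := by
    rw [MonoidHom.range_comp]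
    exact Group.isSolvable_of_surjective
      (f := (GeneralLinearGroup.map (n := Fin 2) (algebraMap k (AlgebraicClosure k))).subgroupMap
        ρ.range) (MonoidHom.subgroupMap_surjective _ _)
  have : CharP (AlgebraicClosure k) 2 := charP_of_injective_algebraMap
    (algebraMap k (AlgebraicClosure k)).injective 2
  rcases hG (AlgebraicClosure k) GQ _ hsol with ⟨χ₁, χ₂, h⟩ | ⟨M, χ₁, χ₂, hM, h1, h2, m, hm⟩
  · refine hT E r hc hu h3 O hO (AlgebraicClosure k) ((algebraMap k (AlgebraicClosure k)).comp π)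
      χ₁ χ₂ fun g => ?_
    obtain ⟨t, d, e1, e2, e3, e4⟩ := ht g
    exact ⟨t, d, e1, e2, e3.trans (h g).1, e4.trans (h g).2⟩
  · refine absurd (hI E r hc hu h3 O hO (AlgebraicClosure k)
      ((algebraMap k (AlgebraicClosure k)).comp π) (fun g =>
        (((GeneralLinearGroup.map (algebraMap k (AlgebraicClosure k))).comp ρ) g :
          Matrix (Fin 2) (Fin 2) (AlgebraicClosure k)).trace) (fun g => ?_) M χ₁ χ₂ hM h1 h2 m) hm
    obtain ⟨t, d, e1, e2, e3, e4⟩ := ht g
    exact ⟨t, e1, e3⟩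

/-- [ASM] -/
theorem solv_of (hG : GrpStmt) (hI : IndStmt) (hL : LatStmt) (hT : TrivStmt)
    (h2 : ∀ (k : Type) [Field k], (∀ x : k, x = 0 ∨ x = 1) → Group.IsSolvable (GL (Fin 2) k)) :
    SolvStmt := by
  intro E _ _ _ r hc hu h3 h
  rcases h with h | h
  · exact solv_aux hG hI hT E r hc hu h3 h
  · refine solv_aux hG hI hT E r hc hu h3 ?_
    obtain ⟨O, k, _, _, π, ρ, hO, hsur, hker, htd⟩ := hL E r hc
    refine ⟨O, k, inferInstance, inferInstance, π, ρ, hO, ?_, htd⟩
    have hk : ∀ x : k, x = 0 ∨ x = 1 := by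
      intro x
      obtain ⟨a, rfl⟩ := hsur x
      rcases h a ((hO _).1 a.2) with h1 | h1
      · exact Or.inl ((hker a).2 h1)
      · right
        have h4 : π (a - 1) = 0 := (hker (a - 1)).2 (by simpa using h1)
        rwa [map_sub, map_one, sub_eq_zero] at h4
    have := h2 k hk
    infer_instance

end Vale.Agent.P022.H201.Sv
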